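import Crest.Agent.X212.Rgl52.Main
import Crest.Agent.X212.Hel40.Bas
import Crest.Agent.X212.H7.Defs

/-!
# X212/Rgl52/Fib (helper52): a circle valued submersion is a mapping torus (`fib`, `base`)
-/

set_option autoImplicit false
set_option linter.unusedSectionVars false
set_option linter.style.haveILetI false
set_option backward.isDefEq.respectTransparency false

open Set Filter Topology Function
open scoped ContDiff Manifold
open Crest.Agent.R208.F Crest.Agent.X212.Dr59 Crest.Agent.X212.Int54 Crest.Agent.X212.Cyl58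
open Crest.Agent.X212.Sep15 (EE IR CM Box slab px Rg)
open Crest.Agent.X212.Bb31 (Fm Cy Df Pos)
open Crest.Agent.X212.Flo26 (SmV fl)
open Crest.Agent.X212.Hel40
open Real (arctan)

noncomputable section

namespace Crest.Agent.X212.Rgl52

variable {Y Y₀ : CM 3} {R : CM 2} {Φ : Y → Circle} {v w : Vf Y} {b : R × ℝ → Y}

theorem rt_at {y : Y}
    (hv : ContMDiffAt (𝓡 3) (𝓡 3).tangent ∞ (fun x => (⟨x, v x⟩ : TangentBundle (𝓡 3) Y)) y)
    (h : ContMDiffAt (𝓡 3) (𝓡 1) ∞ Φ y) : ContinuousAt (rt Φ v) y := by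
  have h1 : ContMDiffAt (𝓡 3) 𝓘(ℝ, ℂ) ∞ (fun z => (Φ z : ℂ)) y := (Line51.contMDiff_coe _).comp y h
  have h2 := Sob92.dv_smoothAt hv h1
  refine (Complex.continuous_im.continuousAt.comp
    (h1.continuousAt.star.mul h2.continuousAt)).congr (Eventually.of_forall fun z => ?_)
  exact (dl_apply (I := 𝓡 3) (g := Φ) (x := z) (v z)).symm

/-- a field transverse to the fibres -/
theorem exists_pos (hs : SC Φ) (h : ∀ y, dl (𝓡 3) Φ y ≠ 0) :
    ∃ v : Vf Y, SmV (𝓡 3) v ∧ ∀ y, 0 < rt Φ v y := by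
  haveI := Orx52.sigmaCompact (𝓡 3) Y
  obtain ⟨v, hv⟩ := exists_contMDiffSection_forall_mem_convex_of_local (n := (⊤ : ℕ∞)) (𝓡 3)
    (F_fiber := EE 3) (TangentSpace (𝓡 3) : Y → Type) (fun y => dl (𝓡 3) Φ y ⁻¹' Ioi 0)
    (fun y => (convex_Ioi 0).linear_preimage _) fun x => by
      obtain ⟨c, hc⟩ : ∃ c, 0 < dl (𝓡 3) Φ x c := by
        obtain ⟨c, hc⟩ := DFunLike.ne_iff.1 (h x)
        rcases lt_or_gt_of_ne hc with a | a
        exacts [⟨-c, by simpa using a⟩, ⟨c, a⟩]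
      obtain ⟨s, h1, h2⟩ := FiberBundle.exists_contMDiffOn_extend (k := ∞) (𝓡 3) (EE 3)
        (V := TangentSpace (𝓡 3)) (x₀ := x) c
      have h3 := (rt_at (h2.contMDiffAt h1) (hs x)).eventually
        (lt_mem_nhds (show 0 < rt Φ _ x by rwa [rt, FiberBundle.extend_apply_self]))
      exact ⟨_, inter_mem h1 h3, _, h2.mono inter_subset_left, fun y hy => hy.2⟩
  exact ⟨v, v.contMDiff, hv⟩

/-- the normalised field -/
def nv (Φ : Y → Circle) (v : Vf Y) : Vf Y := fun y => (rt Φ v y)⁻¹ • v y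

theorem sm_nv (hv : SmV (𝓡 3) v) (hs : SC Φ) (h : ∀ y, 0 < rt Φ v y) : SmV (𝓡 3) (nv Φ v) :=
  Flo26.SmV.smul (fun y => (contMDiffAt_rt hv (hs y)).inv₀ (h y).ne') hv

theorem rt_nv (h : ∀ y, 0 < rt Φ v y) (y : Y) : rt Φ (nv Φ v) y = 1 :=
  (map_smul (dl (𝓡 3) Φ y) _ _).trans (inv_mul_cancel₀ (h y).ne')

theorem phi_one (hw : SmV (𝓡 3) w) (hs : SC Φ) (h1 : ∀ y, rt Φ w y = 1) (y : Y) (t : ℝ) :
    Φ (fl w t y) = Φ y * Circle.exp t := by
  rw [phi_fl hw hs, ag]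
  simp [h1]

theorem ld_R {g : ℝ → ℝ} (hg : ContDiff ℝ ∞ g) {x c : ℝ} (h : HasDerivAt g c x) (h0 : c ≠ 0) :
    IsLocalDiffeomorphAt 𝓘(ℝ, ℝ) 𝓘(ℝ, ℝ) ∞ g x :=
  Glue52.ld_of_fderiv isOpen_univ (mem_univ x) hg.contDiffOn
    (ContinuousLinearEquiv.unitsEquivAut ℝ (Units.mk0 c h0)) (h.hasFDerivAt_equiv h0)

/-- `c + 2 arctan s` -/
def ar (c s : ℝ) : ℝ := c + 2 * arctan s

theorem ar_der (c s : ℝ) : HasDerivAt (ar c) (2 * (1 / (1 + s ^ 2))) s :=
  ((Real.hasDerivAt_arctan s).const_mul 2).const_add c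

theorem ld_ar (c s : ℝ) : IsLocalDiffeomorphAt 𝓘(ℝ, ℝ) 𝓘(ℝ, ℝ) ∞ (ar c) s :=
  ld_R (contDiff_const.add (contDiff_const.mul Real.contDiff_arctan)) (ar_der c s) (by positivity)

theorem ar_lt (c s : ℝ) : c - Real.pi < ar c s ∧ ar c s < c + Real.pi := by
  have := Real.arctan_lt_pi_div_two s
  have := Real.neg_pi_div_two_lt_arctan s
  constructor <;> unfold ar <;> linarith

theorem exists_ar {c t : ℝ} (h1 : c - Real.pi < t) (h2 : t < c + Real.pi) : ∃ s, ar c s = t :=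
  ⟨Real.tan ((t - c) / 2), by rw [ar, Real.arctan_tan (by linarith) (by linarith)]; ring⟩

theorem exp_ar_inj (c : ℝ) : Injective fun s => Circle.exp (ar c s) := fun s t e => by
  obtain ⟨m, hm⟩ := Circle.exp_eq_exp.1 e
  have h1 := ar_lt c s
  have h2 := ar_lt c t
  have p := Real.pi_pos
  have h3 : (m : ℝ) < 1 := by nlinarith [h1.2, h2.1]
  have h4 : (-1 : ℝ) < m := by nlinarith [h1.1, h2.2]
  obtain rfl : m = 0 := by
    have : m < 1 := by exact_mod_cast h3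
    have : -1 < m := by exact_mod_cast h4
    omega
  exact Real.arctan_injective (by unfold ar at hm; simp only [Int.cast_zero] at hm; linarith)

theorem range_ar (θ : Circle) : (∃ s, Circle.exp (ar 0 s) = θ) ↔ (θ : ℂ) ≠ -1 := by
  constructor
  · rintro ⟨s, rfl⟩ e
    have h := congrArg Complex.arg e
    rw [Circle.arg_exp (by simpa using (ar_lt 0 s).1) (by simpa using (ar_lt 0 s).2.le),
      Complex.arg_neg_one] at h
    simpa [h] using (ar_lt 0 s).2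
  · intro h
    obtain ⟨s, e⟩ := exists_ar (c := 0) (t := Complex.arg θ) (by simpa using Complex.neg_pi_lt_arg _)
      (by
        rw [zero_add]
        refine (Complex.arg_le_pi _).lt_of_ne fun a => h ?_
        rw [← Circle.exp_arg θ, a]
        simp)
    exact ⟨s, by rw [e, Circle.exp_arg]⟩

theorem oe_exp (c : ℝ) (f : (R × Circle) ≃ₘ^∞⟮(𝓡 2).prod (𝓡 1), 𝓡 3⟯ Y₀) :
    Box fun p : R × ℝ => f (p.1, Circle.exp (ar c p.2)) :=
  (IsOE.of_diffeo f).comp (IsOE.id.prodMap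
    ⟨exp_ar_inj c, fun s => ld_comp (Glue52.ld_circleExp _) (ld_ar c s)⟩)

/-- the flow out of the middle level -/
def fo (w : Vf Y) (b : R × ℝ → Y) (p : R × ℝ) : Y := fl w p.2 (b (p.1, 0))

section core

variable (hw : SmV (𝓡 3) w) (hs : SC Φ) (h1 : ∀ y, rt Φ w y = 1) (hb : Box b)
  (hr : range b = {y | Φ y ≠ 1}) (hΦ : ∀ p, Φ (b p) = cay p.2)
include hw hs h1 hb hΦ

theorem phi_fo (p : R × ℝ) : Φ (fo w b p) = Circle.exp (Real.pi + p.2) := by
  rw [fo, phi_one hw hs h1, hΦ, Circle.exp_add]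
  simp [cay]

theorem ld_fo (p : R × ℝ) : IsLocalDiffeomorphAt (IR 2) (𝓡 3) ∞ (fo w b) p := by
  have s0 : ContMDiff (IR 2) (𝓡 3) ∞ (fo w b) := ((cpl hw).contMDiff hw).comp
    (f := fun p : R × ℝ => (p.2, b (p.1, 0)))
    (contMDiff_snd.prodMk (hb.contMDiff.comp (contMDiff_fst.prodMk contMDiff_const)))
  have d0 := (s0 p).mdifferentiableAt ne0
  refine Glue52.ld_of_injective_mfderiv (by simp) isOpen_univ (mem_univ p) s0.contMDiffOn
    ((injective_iff_map_eq_zero _).2 fun u hu => ?_)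
  have hu' : mf (IR 2) (𝓡 3) (fo w b) p u = 0 := hu
  have e1 := dl_comp (hs _) d0 u
  rw [hu', map_zero, show Φ ∘ fo w b = fun y => Circle.exp (((fun _ => Real.pi) + Prod.snd : R × ℝ → ℝ) y)
    from funext (phi_fo hw hs h1 hb hΦ),
    dl_exp (f := (fun _ => Real.pi) + Prod.snd) (contMDiffAt_const.add contMDiffAt_snd),
    mf_of_has ((hasMFDerivAt_const Real.pi p).add (hasMFDerivAt_snd p))] at e1
  have e2 : u.2 = 0 := (zero_add _).symm.trans e1
  have di : ∀ t : ℝ, MDifferentiableAt (𝓡 2) (IR 2) (fun x : R => (x, t)) p.1 := fun t =>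
    mdifferentiableAt_id.prodMk mdifferentiableAt_const
  have dj : ∀ t : ℝ, mf (𝓡 2) (IR 2) (fun x : R => (x, t)) p.1 u.1 = u := fun t =>
    (congrArg (fun L : EE 2 →L[ℝ] EE 2 × ℝ => L u.1) mfderiv_prod_left).trans (Prod.ext rfl e2.symm)
  have l : IsLocalDiffeomorphAt (IR 2) (𝓡 3) ∞ (fl w p.2 ∘ b) (p.1, 0) :=
    ld_comp (Flo26.ld_fl hw (cpl hw _)) (hb.loc _)
  have e3 := mf_comp (g := fo w b) d0 (di p.2)
  rw [show fo w b ∘ (fun x : R => (x, p.2)) = (fl w p.2 ∘ b) ∘ fun x : R => (x, (0 : ℝ)) from rfl,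
    mf_comp (f := fun x : R => (x, (0 : ℝ))) (l.mdifferentiableAt ne0) (di 0)] at e3
  have e4 := congrArg (fun L : EE 2 →L[ℝ] EE 3 => L u.1) e3
  simp only [ContinuousLinearMap.comp_apply, dj] at e4
  exact (l.mfderivToContinuousLinearEquiv ne0).injective
    ((e4.trans hu').trans (map_zero _).symm)

theorem box_fo (c : ℝ) : Box fun p : R × ℝ => fo w b (p.1, ar c p.2) := by
  refine ⟨fun p q e => ?_, fun p => ld_comp (g := fo w b) (f := Prod.map id (ar c))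
    (ld_fo hw hs h1 hb hΦ _) (ld_prodMap (ld_id _) (ld_ar c _))⟩
  have e1 := congrArg Φ e
  simp only [phi_fo hw hs h1 hb hΦ, Circle.exp_add, mul_right_inj] at e1
  have e2 : p.2 = q.2 := exp_ar_inj c e1
  simp only [fo, e2] at e
  exact Prod.ext (Prod.ext_iff.1 (hb.inj ((Flo26.flD hw (cpl hw) (ar c q.2)).injective e))).1 e2

include hr

theorem exists_fo {y : Y} {t : ℝ} (e : Φ y = Circle.exp (Real.pi + t)) : ∃ x, fo w b (x, t) = y := by
  have e1 : Φ (fl w (-t) y) = cay 0 := by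
    rw [phi_one hw hs h1, e, ← Circle.exp_add]
    simp [cay]
  obtain ⟨p, hp⟩ := hr.ge (show Φ (fl w (-t) y) ≠ 1 from e1 ▸ cay_ne_one 0)
  have e2 : p.2 = 0 := cay_eq.1 (by rw [← hΦ, hp, e1, cay_zero])
  refine ⟨p.1, ?_⟩
  rw [fo, ← e2, hp, ← fl_add hw, add_neg_cancel, Flo26.fl_zero hw]

theorem exists_ret (m : ℤ) : ∃ h : R → R, ContMDiff (𝓡 2) (𝓡 2) ∞ h ∧
    ∀ x t, fo w b (h x, t) = fo w b (x, t + m * (2 * Real.pi)) := by
  have : ∀ x, ∃ x', fo w b (x', 0) = fo w b (x, m * (2 * Real.pi)) := fun x =>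
    exists_fo hw hs h1 hb hr hΦ (by
      rw [phi_fo hw hs h1 hb hΦ]
      exact Circle.exp_eq_exp.2 ⟨m, by simp⟩)
  choose h hh using this
  simp only [fo, Flo26.fl_zero hw] at hh
  refine ⟨h, contMDiff_fst.comp (hb.contMDiff_left (g := fun x => (h x, 0)) ?_), fun x t => by
    rw [fo, fo, hh, fl_add hw]⟩
  rw [show b ∘ (fun x => (h x, (0 : ℝ))) = _ from funext hh]
  exact (Flo26.flD hw (cpl hw) _).contMDiff.comp
    (hb.contMDiff.comp (contMDiff_id.prodMk contMDiff_const))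

/-- the mapping torus of the return map -/
theorem exists_rg (f : (R × Circle) ≃ₘ^∞⟮(𝓡 2).prod (𝓡 1), 𝓡 3⟯ Y₀) : ∃ (h : Df R)
    (G : Rg (fun p : R × ℝ => f (p.1, cay p.2)) h fun p : R × ℝ => fo w b (p.1, ar 0 p.2)),
      (∀ x t, fo w b (h x, t) = fo w b (x, t - 2 * Real.pi)) ∧
      ∀ x (θ : Circle), (θ : ℂ) ≠ -1 → Φ (G.φ (f (x, θ))) = θ := by
  obtain ⟨h, s1, e1⟩ := exists_ret hw hs h1 hb hr hΦ (-1)
  obtain ⟨k, s2, e2⟩ := exists_ret hw hs h1 hb hr hΦ 1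
  have ij : ∀ x x', fo w b (x, 0) = fo w b (x', 0) → x = x' := fun x x' e => by
    simp only [fo, Flo26.fl_zero hw] at e
    exact congrArg Prod.fst (hb.inj e)
  have e3 : ∀ x t, fo w b (h x, t) = fo w b (x, t - 2 * Real.pi) := fun x t => by
    rw [e1]; simp [sub_eq_add_neg]
  let g : Df R := Glue52.diffeoOf h k s1 s2 (fun x => ij _ _ (by rw [e2, e1]; simp))
    fun x => ij _ _ (by rw [e1, e2]; simp)
  have B0 := oe_exp Real.pi f
  have B1 := box_fo hw hs h1 hb hΦ 0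
  have Q := oe_exp 0 f
  have P := box_fo hw hs h1 hb hΦ (-Real.pi)
  have pi := Real.pi_pos
  rcases isEmpty_or_nonempty R with hR | hR
  · haveI : IsEmpty Y₀ := f.symm.toEquiv.isEmpty
    haveI : IsEmpty Y := ⟨fun y => hR.false (exists_fo hw hs h1 hb hr hΦ (y := y)
      (t := Complex.arg (Φ y) - Real.pi) (by simp)).choose⟩
    exact ⟨g, ⟨B0, B1, (Glue52.diffeoOf isEmptyElim isEmptyElim isEmptyElim isEmptyElim isEmptyElim
      isEmptyElim).toPartialDiffeomorph, Subsingleton.elim _ _, Subsingleton.elim _ _,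
      fun p => isEmptyElim p.1, fun p => isEmptyElim p.1⟩, e3, isEmptyElim⟩
  have key : ∀ x t, -Real.pi < t → t < Real.pi →
      Q.span P (f (x, Circle.exp t)) = fo w b (x, t - Real.pi) := fun x t a1 a2 => by
    obtain ⟨s, rfl⟩ := exists_ar (c := 0) (t := t) (by linarith) (by linarith)
    rw [Q.span_apply P (x, s)]
    simp [ar, sub_eq_neg_add]
  refine ⟨g, ⟨B0, B1, Q.span P, ?_, ?_, fun p hp => ?_, fun p hp => ?_⟩, e3, fun x θ hθ => ?_⟩
  · rw [IsOE.span_source]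
    ext y
    obtain ⟨⟨x, θ⟩, rfl⟩ := f.surjective y
    constructor
    · rintro ⟨p, a⟩ ⟨q, q1, c⟩
      refine (range_ar θ).1 ⟨p.2, congrArg Prod.snd (f.injective a)⟩ ?_
      rw [← show cay q.2 = θ from congrArg Prod.snd (f.injective c), show q.2 = 0 from q1.2, cay_zero]
    · intro a
      obtain ⟨s, rfl⟩ := (range_ar θ).2 fun c => a ⟨(x, 0), ⟨trivial, rfl⟩,
        congrArg (fun θ => f (x, θ)) (Circle.ext (cay_zero.trans c.symm))⟩
      exact ⟨(x, s), rfl⟩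
  · rw [IsOE.span_target]
    ext y
    constructor
    · rintro ⟨p, a⟩ ⟨q, q1, c⟩
      have := congrArg Φ (a.trans c.symm)
      simp only [phi_fo hw hs h1 hb hΦ, show q.2 = 0 from q1.2] at this
      refine (range_ar _).1 ⟨p.2, rfl⟩ ?_
      rw [show ar 0 p.2 = Real.pi + ar (-Real.pi) p.2 by simp [ar], this]
      simp [ar]
    · intro a
      obtain ⟨s, e⟩ := (range_ar (Φ y)).2 fun c => by
        obtain ⟨x, e⟩ := exists_fo hw hs h1 hb hr hΦ (y := y) (t := ar 0 0)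
          (Circle.ext (by simp [c, ar]))
        exact a ⟨(x, 0), ⟨trivial, rfl⟩, e⟩
      obtain ⟨x, e'⟩ := exists_fo hw hs h1 hb hr hΦ (y := y) (t := ar (-Real.pi) s) (by simp [← e, ar])
      exact ⟨(x, s), e'⟩
  · have := Real.neg_pi_div_two_lt_arctan p.2
    have := Real.arctan_lt_zero.2 hp
    exact (key p.1 _ (by linarith) (by linarith)).trans (by simp [ar])
  · have := Real.arctan_lt_pi_div_two p.2
    have := Real.arctan_pos.2 hp
    have e : cay p.2 = Circle.exp (2 * arctan p.2 - Real.pi) :=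
      Circle.exp_eq_exp.2 ⟨1, by push_cast; ring⟩
    refine (congrArg (fun θ => Q.span P (f (p.1, θ))) e).trans
      ((key p.1 _ (by linarith) (by linarith)).trans ((e3 _ _).trans ?_).symm)
    exact congrArg (fun t => fo w b (p.1, t)) (by simp only [ar, px]; ring)
  · obtain ⟨s, rfl⟩ := (range_ar θ).2 hθ
    exact (congrArg Φ (Q.span_apply P (x, s))).trans ((phi_fo hw hs h1 hb hΦ _).trans (by simp [ar]))

end core

/-- **FIB** (the text of `H7.FibStmt`, unbundled) -/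
theorem fib (hs : SC Φ) (hb : Box b) (hr : range b = {y | Φ y ≠ 1}) (hΦ : ∀ p, Φ (b p) = cay p.2)
    (h0 : ∀ y, Line51.ang (𝓡 3) Φ y ≠ 0) :
    ∃ (Y₀ : CM 3) (f : (R × Circle) ≃ₘ^∞⟮(𝓡 2).prod (𝓡 1), 𝓡 3⟯ Y₀) (h : Df R) (b' : R × ℝ → Y)
      (G : Rg (fun p : R × ℝ => f (p.1, cay p.2)) h b'),
      (∀ p, Φ (b' p) = cay p.2) ∧ ∀ p ∈ G.φ.source, Φ (G.φ p) = (f.symm p).2 := by
  obtain ⟨v, hv, h1⟩ := exists_pos hs fun y e => h0 y (by rw [ang_eq, e, map_zero])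
  obtain ⟨Y₀, ⟨f⟩⟩ := Sep15.exists_prod R
  obtain ⟨h, G, -, k⟩ := exists_rg (sm_nv hv hs h1) hs (rt_nv h1) hb hr hΦ f
  refine ⟨Y₀, f, h, _, G, fun p => (phi_fo (sm_nv hv hs h1) hs (rt_nv h1) hb hΦ _).trans
    (by simp [ar, cay]), fun y hy => ?_⟩
  obtain ⟨⟨x, θ⟩, rfl⟩ := f.surjective y
  refine (k x θ fun c => ?_).trans (congrArg Prod.snd (f.symm_apply_apply (x, θ))).symm
  rw [G.src] at hy
  exact hy ⟨(x, 0), ⟨trivial, rfl⟩, congrArg (fun θ => f (x, θ)) (Circle.ext (cay_zero.trans c.symm))⟩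

theorem fibStmt : H7.FibStmt := fun _ _ _ _ F h => fib F.sm F.box F.rg F.eq h

/-- a vertical box is swept out by the normalised flow -/
theorem fo_eq (hv : SmV (𝓡 3) v) (hs : SC Φ) (h1 : ∀ y, 0 < rt Φ v y) (hb : Box b)
    (hΦ : ∀ p, Φ (b p) = cay p.2) (hV : Vert v b) (p : R × ℝ) :
    fo (nv Φ v) b (p.1, ar 0 p.2) = b p := by
  have a := ar_lt 0 p.2
  have pi := Real.pi_pos
  have := (Flo26.fl_of_curve (sm_nv hv hs h1) (γ := fun t => b (p.1, Real.tan (t / 2)))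
    (T := ar 0 p.2) fun s hs' => ?_).2
  · simpa [fo, ar] using this
  have m : s ∈ Ioo (-Real.pi) Real.pi := ordConnected_Ioo.uIcc_subset ⟨by linarith, pi⟩
    ⟨by linarith [a.1], by linarith [a.2]⟩ hs'
  filter_upwards [isOpen_Ioo.mem_nhds m] with t ht
  have c0 : Real.cos (t / 2) ≠ 0 :=
    (Real.cos_pos_of_mem_Ioo ⟨by linarith [ht.1], by linarith [ht.2]⟩).ne'
  have d1 := (Real.hasDerivAt_tan c0).comp t ((hasDerivAt_id t).div_const 2)
  set q : R × ℝ := (p.1, Real.tan (t / 2))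
  have d2 := ((hb.loc q).mdifferentiableAt ne0).hasMFDerivAt.comp t
    ((hasMFDerivAt_const p.1 t).prodMk d1.hasFDerivAt.hasMFDerivAt)
  obtain ⟨f, -, f1⟩ := hV q
  have e1 := dl_comp (hs _) ((hb.loc q).mdifferentiableAt ne0) (0, 1)
  rw [f1, map_smul, show Φ ∘ b = fun y => Circle.exp ((ar Real.pi ∘ Prod.snd) y) from funext hΦ,
    dl_exp ((ld_ar _ _).contMDiffAt.comp q contMDiffAt_snd),
    mf_of_has ((ar_der _ _).hasFDerivAt.hasMFDerivAt.comp q (hasMFDerivAt_snd q))] at e1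
  have e2 : 2 * Real.cos (t / 2) ^ 2 = f * rt Φ v (b q) := by
    rw [← Real.inv_one_add_tan_sq c0, ← one_div]
    exact (one_smul ℝ _).symm.trans e1
  refine d2.congr_mfderiv (ContinuousLinearMap.ext_ring ?_)
  have e3 : mf (IR 2) (𝓡 3) b q ((1 / Real.cos (t / 2) ^ 2 * (1 / 2)) • (0, 1)) =
      (rt Φ v (b q))⁻¹ • (v (b q) : EE 3) := by
    rw [map_smul, f1, smul_smul]
    congr 1
    have := (h1 (b q)).ne'
    field_simp
    linarith
  refine Eq.trans ?_ (e3.trans (one_smul ℝ _).symm)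
  exact congrArg (mf (IR 2) (𝓡 3) b q) (Prod.ext (smul_zero _).symm ((one_smul ℝ _).trans
    (mul_one _).symm))

theorem pos_of_px {oR : Fm 2 R} (hR : Ori (𝓡 2) oR) (h : Df R)
    (k : Orx52.Pos (IR 2) (IR 2) (px h) univ (Orx52.cy oR) (Orx52.cy oR)) : Pos oR h := fun x _ => by
  have l : ∀ y ∈ ({x} : Set R), IsLocalDiffeomorphAt (𝓡 2) (𝓡 2) ∞ h y :=
    fun y _ => h.isLocalDiffeomorph y
  refine (Orx52.pos_or isPreconnected_singleton (Orx52.oriOn hR _) (Orx52.oriOn hR univ) l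
    (mapsTo_univ _ _)).elim (fun a => a x rfl) fun a => ?_
  have a1 := Orx52.Pos.cy a l (g := id) (g' := fun _ => 1) (t := univ) (fun x _ => hasDerivAt_id x)
    fun _ _ => one_pos
  rw [show Orx52.cy (-oR) = -Orx52.cy oR by
    rw [Orx52.cy_eq (𝓡 2), Orx52.cy_eq (𝓡 2), pm_neg, mul_neg]] at a1
  exact absurd ((k.mono (subset_univ _)).not_neg a1) (Set.Nonempty.ne_empty ⟨(x, 0), rfl, trivial⟩)

/-- **BASE** -/
theorem base : BaseStmt := by
  intro Y R o v Φ oR b B X hc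
  have h1 : ∀ y, 0 < rt Φ v y := fun y => B.pos y (notMem_empty y)
  have hw := sm_nv B.smv B.smΦ h1
  obtain ⟨Y₀, ⟨f⟩⟩ := Sep15.exists_prod R
  have e : (fun p : R × ℝ => fo (nv Φ v) b (p.1, ar 0 p.2)) = b :=
    funext (fo_eq B.smv B.smΦ h1 X.box X.ang X.vert)
  have H := exists_rg hw B.smΦ (rt_nv h1) X.box X.rg X.ang f
  rw [e] at H
  obtain ⟨h, G, k1, k2⟩ := H
  refine ⟨Y₀, f, _, h, G, B.ori, X.ori, hc, X.cy, pos_of_px X.ori h ?_, B.smΦ, fun _ => rfl, X.ang, k2⟩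
  have l := ld_fo hw B.smΦ (rt_nv h1) X.box X.ang
  have oc := Orx52.oriOn (Orx52.ori_cy X.ori) univ
  have sh : ∀ {g g' : ℝ → ℝ}, (∀ x, HasDerivAt g (g' x) x) → (∀ x, 0 < g' x) →
      Orx52.Pos (IR 2) (IR 2) (Prod.map id g) univ (Orx52.cy oR) (Orx52.cy oR) := fun a c =>
    (Orx52.Pos.cy (Orx52.pos_id.2 (Orx52.oriOn X.ori univ).same) (fun y _ => ld_id y) (t := univ)
      (fun x _ => a x) fun x _ => c x).mono fun _ _ => ⟨trivial, trivial⟩
  have p0 : Orx52.Pos (IR 2) (𝓡 3) (fo (nv Φ v) b) univ (Orx52.cy oR) o := by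
    obtain ⟨x, -⟩ := hc.nonempty
    have := Orx52.Pos.of_comp (f := fo (nv Φ v) b) (g := Prod.map id (ar 0)) (o := o)
      (show Orx52.Pos _ _ (fun p : R × ℝ => fo (nv Φ v) b (p.1, ar 0 p.2)) univ _ _ from e.symm ▸ X.cy)
      (sh (ar_der 0) fun _ => by positivity) (fun z _ => l _) fun z _ => ld_prodMap (ld_id _) (ld_ar _ _)
    exact Orx52.pos_of_pt (univ_prod_univ ▸ hc.isPreconnected.prod isPreconnected_univ) oc
      (Orx52.oriOn B.ori univ) (fun y _ => l y) (mapsTo_univ _ _) (y := (x, ar 0 0)) trivial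
      (this.mono fun _ a => ⟨(x, 0), trivial, Eq.symm a⟩)
  refine Orx52.Pos.of_comp_left (f := fo (nv Φ v) b) (((p0.comp (sh (g := fun t => t - 2 * Real.pi)
    (fun x => (hasDerivAt_id x).sub_const _) fun _ => one_pos) (fun y _ => l y)
    (fun z _ => ld_prodMap (ld_id _) (ld_R (by fun_prop) ((hasDerivAt_id _).sub_const _) one_ne_zero))
    (mapsTo_univ _ _))).congr isOpen_univ fun p _ => k1 p.1 p.2) p0 (fun y _ => l y)
    (fun z _ => ld_px h z) (mapsTo_univ _ _)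

end Crest.Agent.X212.Rgl52
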